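import Vale.Agent.P229.Glob

open scoped ContDiff

theorem Vale.Agent.Results.P229.NoImmersion.result :
    ∃ g : EuclideanSpace ℝ (Fin 2) → Matrix (Fin 2) (Fin 2) ℝ,
      (∀ i j, ContDiff ℝ ∞ fun x => g x i j) ∧ (∀ x, (g x).PosDef) ∧
      ∀ U : Set (EuclideanSpace ℝ (Fin 2)), IsOpen U → 0 ∈ U →
        ¬ ∃ F : EuclideanSpace ℝ (Fin 2) → EuclideanSpace ℝ (Fin 3), ContDiffOn ℝ ∞ F U ∧
          ∀ x ∈ U, ∀ i j : Fin 2,
            inner ℝ (fderiv ℝ F x (EuclideanSpace.single i 1))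
              (fderiv ℝ F x (EuclideanSpace.single j 1)) = g x i j := by
  refine ⟨fun x => Matrix.diagonal fun _ => P229.fac x, fun i j => ?_, fun x => ?_,
    fun U hU h0 ⟨F, hF, h⟩ => P229.no_local hU h0 hF fun x hx i j => ?_⟩
  · by_cases h : i = j
    · simpa [Matrix.diagonal_apply, h] using P229.fac_smooth
    · simpa [Matrix.diagonal_apply, h] using contDiff_const
  · exact Matrix.posDef_diagonal_iff.2 fun _ => Real.exp_pos _
  · exact (h x hx i j).trans (Matrix.diagonal_apply _ _ _)
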